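import Vale.Agent.P263B15.Rows
import Vale.Agent.P263.FR.H663.BoolC

/-!
# P263B: the converse, from the rows
-/

open Topology Set OnePoint CategoryTheory

namespace Vale.Agent.P263B15

open Vale.Agent.P246.T Vale.Agent.P246.T.FM Vale.Agent.P263.AD.Freu
open Vale.Agent.P263.FR Vale.Agent.P263.TJ Vale.Agent.P263.G2
open Vale.Agent.P263.S hiding sn sn_add
open Vale.Agent.P263.E Vale.Agent.P263.H83

theorem pc_TT (P : Type) [TopologicalSpace P] [CompactSpace P] [T2Space P] :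
    PathConnectedSpace (TT 1 P) := by
  have h1 : ∀ z : TT 1 P, Joined z ∞ := by
    intro z
    induction z using OnePoint.rec with
    | infty => exact Joined.refl _
    | coe p =>
      have h := Vale.Agent.P263.T0.pathConnectedSpace_sph (d := 1) one_pos
      exact ⟨(PathConnectedSpace.somePath ((p.1 : Fin 1 → ℝ) : Vale.Agent.P263.T0.Sph 1) ∞).map
        (f := fun w => smP 1 P (w, p.2)) (by fun_prop)⟩
  exact ⟨⟨∞⟩, fun x y => (h1 x).trans (h1 y).symm⟩

/-- the map of spheres given by `f` -/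
noncomputable def jf (hJ : JC) {m n : ℕ} {N K : Type} [TopologicalSpace N] [CompactSpace N]
    [TopologicalSpace K] (k₀ : K) (c : C(Sp m, TT n N)) (f : C(N, K)) : C(Sp m, SuN n k₀) :=
  ⟨fun z => JF n k₀ f (c z), (hJ n N K k₀ f).comp c.continuous⟩

theorem split_of (hJ : JC) (hC : CUT) (hS : SPLIT) {m n : ℕ} {N K : Type} [TopologicalSpace N]
    [CompactSpace N] [T2Space N] [TopologicalSpace K] [T2Space K] (k₀ : K) (c : C(Sp m, TT n N))
    (hc : c ∞ = ∞) (f f' : C(N, K)) (h : (jf hJ k₀ c f).HomotopicRel (jf hJ k₀ c f') {∞}) :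
    ∃ (Y : Set K) (_ : CompactSpace Y) (a a' : C(N, Y)), k₀ ∈ Y ∧ (∀ p, (a p).1 = f p) ∧
      (∀ p, (a' p).1 = f' p) ∧ StHtpc (m := m) (n := n) (X := TopCat.of Y)
        ((thm (K := n) a).comp c) ((thm (K := n) a').comp c) := by
  obtain ⟨Y, h₀, hf, hf', a, a', hY, ha, ha', hh⟩ :=
    hC m n N K k₀ c f f' _ _ hc (fun _ => rfl) (fun _ => rfl) h
  have : CompactSpace Y := isCompact_iff_compactSpace.1 hY
  exact ⟨Y, this, ⟨fun p => ⟨f p, hf p⟩, by fun_prop⟩, ⟨fun p => ⟨f' p, hf' p⟩, by fun_prop⟩, h₀,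
    fun _ => rfl, fun _ => rfl, hS m n N Y ⟨k₀, h₀⟩ c _ _ a a' hc ha ha' hh⟩

theorem pull_val {N K : Type} [TopologicalSpace N] [TopologicalSpace K] {Y : Set K} (a : C(N, Y))
    (f : C(N, K)) (h : ∀ p, (a p).1 = f p) (y : Cc (sing K)) :
    Cc.pull (singMap a) (Cc.pull (singMap (PR.inc Y)) y) = Cc.pull (singMap f) y := by
  have e : f = (PR.inc Y).comp a := ContinuousMap.ext fun p => (h p).symm
  rw [e]
  rfl

section

variable {i q : ℕ} {K : Type} [TopologicalSpace K] [T2Space K] {y : Cc (sing K)}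

theorem phi_eq (hJ : JC) (hC : CUT) (hS : SPLIT) {N : Type} [TopologicalSpace N] [CompactSpace N]
    [T2Space N] (k₀ : K) (c : C(Sp (q + q + (i + 1)), TT (i + 1) N)) (hc : c ∞ = ∞) (hq : 0 < q)
    (f f' : C(N, K)) (h : (jf hJ k₀ c f).HomotopicRel (jf hJ k₀ c f') {∞}) (hy : Cc.IsDeg q y)
    (dy : Cc.d y = 0) {u w : Cc (sing N)} (hu : Cc.IsDeg q u) (du : Cc.d u = 0)
    (hw : Cc.IsDeg q w) (dw : Cc.d w = 0) (e : (Cc.cupC (sing N)).Coh (Cc.pull (singMap f) y) u)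
    (e' : (Cc.cupC (sing N)).Coh (Cc.pull (singMap f') y) w) :
    Phi (d := q + q) c hc hu du = Phi (d := q + q) c hc hw dw := by
  have hd : 0 < q + q := by omega
  obtain ⟨Y, _, a, a', -, ha, ha', hh⟩ := split_of hJ hC hS k₀ c hc f f' h
  have hz : Cc.IsDeg q (Cc.pull (singMap (PR.inc Y)) y) := hy.pull _
  have dz : Cc.d (Cc.pull (singMap (PR.inc Y)) y) = 0 := by rw [← pull_d, dy, pull_zero]
  have h1 : ∀ b : C(N, Y), ((thm (K := i + 1) b).comp c) ∞ = ∞ := fun b => by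
    show thm b (c ∞) = ∞
    rw [hc]
    rfl
  have h2 : ∀ b : C(N, Y), Cc.d (Cc.pull (singMap b) (Cc.pull (singMap (PR.inc Y)) y)) = 0 :=
    fun b => by rw [← pull_d, dz, pull_zero]
  have h3 := Phi_stHtpc (Y := TopCat.of Y) (d := q + q) hd (h1 a) (h1 a') hh hz dz
  rw [← pull_val a f ha] at e
  rw [← pull_val a' f' ha'] at e'
  exact (Phi_coh hd _ (h2 a) hu du e).symm.trans
    ((Phi_nat a hd hz dz (hLc := h1 a) (hz.pull _) (h2 a)).symm.trans (h3.trans
      ((Phi_nat a' hd hz dz (hLc := h1 a') (hz.pull _) (h2 a')).trans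
        (Phi_coh hd _ (h2 a') hw dw e'))))

theorem phiZero_of (hJ : JC) (hN : NULLC) (hC : CUT) (hS : SPLIT) {m n : ℕ} {N : TopCat.{0}}
    [CompactSpace N] [T2Space N] (k₀ : K) (c : Vale.Agent.P263.ST.Sph m ⟶ Th n N)
    (cN : C(Sp m, TT n N)) (hc : cN ∞ = ∞) (he : ∀ z, c z = cN z) (f : C(N, K))
    (h : (jf hJ k₀ cN f).HomotopicRel (ContinuousMap.const _ (Su.inf _ k₀)) {∞})
    (hy : Cc.IsDeg q y) (dy : Cc.d y = 0) {u : Cc (sing N)} (hu : Cc.IsDeg q u) (du : Cc.d u = 0)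
    (e : (Cc.cupC (sing N)).Coh (Cc.pull (singMap f) y) u) : PhiZero c (cl q u du) := by
  have h0 := hN m n N K k₀ cN (jf hJ k₀ cN (ContinuousMap.const N k₀)) hc fun _ => rfl
  obtain ⟨Y, hY, a, a', h₀, ha, ha', hh⟩ :=
    split_of hJ hC hS k₀ cN hc f (ContinuousMap.const N k₀) (h.trans h0.symm)
  have hz : Cc.IsDeg q (Cc.pull (singMap (PR.inc Y)) y) := hy.pull _
  have dz : Cc.d (Cc.pull (singMap (PR.inc Y)) y) = 0 := by rw [← pull_d, dy, pull_zero]
  have h2 : Cc.d (Cc.pull (singMap a) (Cc.pull (singMap (PR.inc Y)) y)) = 0 := by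
    rw [← pull_d, dz, pull_zero]
  rw [← pull_val a f ha] at e
  refine ⟨TopCat.of Y, TopCat.ofHom a, cl (X := TopCat.of Y) q _ dz, ⟨k₀, h₀⟩, hY,
    inferInstanceAs (T2Space Y), ?_, ?_⟩
  · exact (pull_cl (X := N) (Y := TopCat.of Y) (TopCat.ofHom a) _ dz h2).trans
      ((cl_eq_iff (X := N) h2 du (hz.pull _) hu).2 e)
  · have e1 : (fun z => Th.fmap (X := N) (Y := TopCat.of Y) (TopCat.ofHom a) (c z)) =
        ((thm (K := n) a).comp cN : C(Sp m, TT n Y)) := by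
      funext z
      rw [he]
      rfl
    have e2 : (fun z => Th.fmap (X := N) (Y := TopCat.of Y) (fun _ => (⟨k₀, h₀⟩ : Y)) (c z)) =
        ((thm (K := n) a').comp cN : C(Sp m, TT n Y)) := by
      have e3 : a' = ContinuousMap.const N ⟨k₀, h₀⟩ :=
        ContinuousMap.ext fun p => Subtype.ext (ha' p)
      funext z
      rw [he, e3]
      rfl
    rw [e1, e2]
    exact hh

end

theorem conv (hZ : ZEX) (hT : TWO) (hJ : JC) (hN : NULLC) (hC : CUT) (hS : SPLIT) (hL : LOOPY) :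
    CONV := by
  intro i q N _ _ c cN hc he hq w hw dw h1 u hu du h0
  let x : Bool → Cc (sing N) := fun b => cond b w u
  have hx : ∀ b, Cc.IsDeg q (x b) := fun b => by
    cases b
    exacts [hu, hw]
  have dx : ∀ b, Cc.d (x b) = 0 := fun b => by
    cases b
    exacts [du, dw]
  obtain ⟨U, hU, hL'⟩ := hL (N × Bool) q (glB x) (isDeg_glB hx) (d_glB_zero dx)
  have := pc_TT (N × Bool)
  obtain ⟨Z, _, ι, v, hT2, hv, hvU, z1, z2, z3, z4⟩ := hZ q hq (TT 1 (N × Bool)) ∞ U hU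
  obtain ⟨f, y, hy, dy, e⟩ := hL' Z ι v hv hvU
  have e' : ∀ b, (Cc.cupC (sing N)).Coh (Cc.pull (singMap (f.comp (inB b))) y) (x b) := fun b =>
    e.map (Cc.pullHom (singMap (inB b)))
  have h2 := hT Z (ι ∞) q hq z1 z2 z3 z4 (i + 1) (by omega)
  rw [two_mul] at h2
  have h3 : ∀ g : C(N, Lp (ι ∞)), jf hJ (kL (ι ∞)) cN g ∞ = Su.inf _ _ := fun g => by
    show JF _ _ g (cN ∞) = _
    rw [hc]
    rfl
  rcases h2 _ _ (h3 (f.comp (inB false))) (h3 (f.comp (inB true))) with h | h | h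
  · exact phiZero_of hJ hN hC hS _ c cN hc he _ h hy dy hu du (e' false)
  · have h4 := phiZero_of hJ hN hC hS _ c cN hc he _ h hy dy hw dw (e' true)
    have h5 := @Phi_of_phiZero (q + q) i q N _ _ _ hq (by omega) c cN hc he _ h4 w hw dw rfl
    exact absurd (h5.symm.trans h1) zero_ne_one
  · have h4 := phi_eq hJ hC hS _ cN hc hq _ _ h hy dy hu du hw dw (e' false) (e' true)
    exact absurd (h0.symm.trans (h4.trans h1)) zero_ne_one

end Vale.Agent.P263B15
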