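import Vale.Agent.P263B15.Defs
import Vale.Agent.P263.FR.H378.PhiZ
import Vale.Agent.P178.H551.Hur4
import Vale.Agent.P178.H948.VK

/-!
# P263B: the rows
-/

open Topology Set OnePoint

namespace Vale.Agent.P263B15

open Vale.Agent.P246.T Vale.Agent.P246.T.FM Vale.Agent.P263.AD.Freu
open Vale.Agent.P251.G.LC (smash)
open Vale.Agent.P178.H551 (IsSm hur)

/-! ### suspensions -/

/-- the model is a suspension -/
def SUSP : Prop := ∀ (E K : Type) [NormedAddCommGroup E] [NormedSpace ℝ E] [FiniteDimensional ℝ E]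
  [TopologicalSpace K] (s : E →L[ℝ] ℝ) (k₀ : K),
  ∃ D : SuspData (Su s k₀) (Su (s.comp (ContinuousLinearMap.fst ℝ E ℝ)) k₀) (Su.inf _ k₀)
      (Su.inf _ k₀),
    ∀ (a : Su s k₀) (t : I), ((D.j a).1.1 t).1.1 = smash a.1.1 (ps t) ∧
      (((D.j a).1.1 t).1.1 ≠ ∞ → ((D.j a).1.1 t).1.2 = a.1.2)

/-- change of coordinates -/
def HOMEO : Prop := ∀ (E E' K : Type) [NormedAddCommGroup E] [NormedSpace ℝ E]
  [NormedAddCommGroup E'] [NormedSpace ℝ E'] [TopologicalSpace K] (s : E →L[ℝ] ℝ)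
  (s' : E' →L[ℝ] ℝ) (k₀ : K) (e : E ≃L[ℝ] E'), (∀ x, s' (e x) = s x) →
  ∃ h : Su s k₀ ≃ₜ Su s' k₀, h (Su.inf s k₀) = Su.inf s' k₀

/-- homology and simple connectivity of a suspension -/
def SUSPH : Prop := ∀ (A B : Type) [TopologicalSpace A] [TopologicalSpace B] (a₀ : A) (b : B),
  SuspData A B a₀ b → RZ B 0 ∧ (∀ n, RZ A n → RZ B (n + 1)) ∧
    (PathConnectedSpace A → SimplyConnectedSpace B)

/-- the loop space of a 2-connected space -/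
def LOOPSC : Prop := ∀ (B : Type) [TopologicalSpace B] (b : B), SimplyConnectedSpace B → RZ B 2 →
  SimplyConnectedSpace (Lp b)

/-- adjoint maps -/
def ADJ : Prop := ∀ (B : Type) [TopologicalSpace B] (b : B) (m : ℕ),
  Two (Lp b) (kL b) m → Two B b (m + 1)

/-- Freudenthal -/
def FREU : Prop := ∀ (A B : Type) [TopologicalSpace A] [TopologicalSpace B] (a₀ : A) (b : B),
  SuspData A B a₀ b → ∀ N m : ℕ, SimplyConnectedSpace A → SimplyConnectedSpace (Lp b) →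
  (∀ i < N, RZ A i) → 1 ≤ m → m + 1 ≤ 2 * N → Two A a₀ m → Two (Lp b) (kL b) m

/-! ### cells -/

/-- attaching a family of cells -/
def ATT : Prop := ∀ (A : Type) [TopologicalSpace A] [T2Space A] (n : ℕ), 1 ≤ n → ∀ (Γ : Type)
  (φ : Γ → C(bdk n, A)), ∃ (B : Type) (_ : TopologicalSpace B) (i : C(A, B))
    (Φ : Γ → C(Dk n, B)), T2Space B ∧ IsEmbedding i ∧ CellData n Γ univ (range i) Φ ∧
      ∀ (g : Γ) (x : bdk n), Φ g x = i (φ g x)

/-- extension of cocycles, no obstruction -/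
def EXT1 : Prop := ∀ (A B : Type) [TopologicalSpace A] [TopologicalSpace B] (i : C(A, B)),
  IsEmbedding i → ∀ (n : ℕ) (Γ : Type) (Φ : Γ → C(Dk n, B)), CellData n Γ univ (range i) Φ →
  ∀ (p : ℕ) (u : Fn p A), IsCoc u → n ≠ p + 1 →
  ∃ v : Fn p B, IsCoc v ∧ ∀ c, v (push i p c) = u c

/-- extension of cocycles, vanishing obstruction -/
def EXT2 : Prop := ∀ (A B : Type) [TopologicalSpace A] [TopologicalSpace B] (i : C(A, B)),
  IsEmbedding i → ∀ (p : ℕ) (Γ : Type) (Φ : Γ → C(Dk (p + 1), B)),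
  CellData (p + 1) Γ univ (range i) Φ → ∀ u : Fn p A, IsCoc u →
  (∀ (g : Γ) (c : Ch p A), push i p c = bd p (push (Φ g) (p + 1) (zt (p + 1))) → u c = 0) →
  ∃ v : Fn p B, IsCoc v ∧ ∀ c, v (push i p c) = u c

/-- simple connectivity after attaching cells -/
def STEPSC : Prop := ∀ (A B : Type) [TopologicalSpace A] [TopologicalSpace B] (i : C(A, B))
  (a₀ : A), IsEmbedding i → ∀ (n : ℕ) (Γ : Type) (Φ : Γ → C(Dk n, B)),
  CellData n Γ univ (range i) Φ → 2 ≤ n → PathConnectedSpace A →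
  (∀ γ : Path a₀ a₀, (γ.map i.continuous).Homotopic (Path.refl (i a₀))) → SimplyConnectedSpace B

/-- `φ` extends to the cube in `B` -/
def Ex {A B : Type} [TopologicalSpace A] [TopologicalSpace B] (i : C(A, B)) {n : ℕ}
    (φ : C(bdk n, A)) : Prop := ∃ Ψ : C(Dk n, B), ∀ x : bdk n, Ψ x = i (φ x)

/-- spherical cycles come from the boundary of the cube -/
def KILL1 : Prop := ∀ (A : Type) [TopologicalSpace A] (a₀ : A) (m : ℕ) (σ : C(Dl (m + 2), A)),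
  IsSm a₀ σ → ∃ (φ : C(bdk (m + 2), A)) (c : Ch (m + 1) (bdk (m + 2))),
    push (PR.inc (bdk (m + 2))) (m + 1) c = bd (m + 1) (zt (m + 2)) ∧
      Hg (push φ (m + 1) c) (hur a₀ σ)

/-- null homotopies from extensions -/
def KILL2 : Prop := ∀ (A B : Type) [TopologicalSpace A] [TopologicalSpace B] (i : C(A, B))
  (a₀ : A) (m : ℕ), (∀ φ : C(bdk (m + 1), A), Ex i φ) → ∀ g : C(Dk m, A),
  (∀ x ∈ bdk m, g x = a₀) → ∃ H : C(I × Dk m, B), (∀ x, H (0, x) = i (g x)) ∧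
    (∀ x, H (1, x) = i a₀) ∧ ∀ t, ∀ x ∈ bdk m, H (t, x) = i a₀

/-- the same for loops -/
def KILL3 : Prop := ∀ (A B : Type) [TopologicalSpace A] [TopologicalSpace B] (i : C(A, B))
  (a₀ : A), (∀ φ : C(bdk 2, A), Ex i φ) →
  ∀ γ : Path a₀ a₀, (γ.map i.continuous).Homotopic (Path.refl (i a₀))

/-- the space `Z` -/
def ZEX : Prop := ∀ q : ℕ, 1 ≤ q → ∀ (A : Type) [TopologicalSpace A] [T2Space A]
  [PathConnectedSpace A] (a₀ : A) (u : Fn (q + 1) A), IsCoc u →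
  ∃ (Z : Type) (_ : TopologicalSpace Z) (i : C(A, Z)) (v : Fn (q + 1) Z), T2Space Z ∧ IsCoc v ∧
    (∀ c, v (push i (q + 1) c) = u c) ∧ SimplyConnectedSpace Z ∧ (∀ j ≤ q, RZ Z j) ∧
    H2 Z (q + 1) ∧ PN Z (i a₀) (2 * q + 1)

/-! ### the loop space and the fibre -/

/-- the homology of the loop space -/
def LOOPH : Prop := ∀ (Z : Type) [TopologicalSpace Z] (z₀ : Z) (q : ℕ), 1 ≤ q →
  SimplyConnectedSpace Z → (∀ j ≤ q, RZ Z j) → H2 Z (q + 1) →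
  PathConnectedSpace (Lp z₀) ∧ (∀ j < q, RZ (Lp z₀) j) ∧ H2 (Lp z₀) q

/-- the whisker -/
def WHISK : Prop := ∀ (K : Type) [TopologicalSpace K] (k₀ : K),
  ∃ (κ : C(Su (ContinuousLinearMap.id ℝ ℝ) k₀, K)) (σ : C(K, Su (ContinuousLinearMap.id ℝ ℝ) k₀)),
    κ (Su.inf _ k₀) = k₀ ∧ (∀ e k h, κ (Su.mk _ k₀ e k h) = k) ∧ (∀ k, κ (σ k) = k) ∧
      (σ.comp κ).Homotopic (ContinuousMap.id _)

/-- the evaluation map -/
def EV : Prop := ∀ (Z : Type) [TopologicalSpace Z] (z₀ : Z),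
  ∃ (e : C(Su ((ContinuousLinearMap.id ℝ ℝ).comp (ContinuousLinearMap.fst ℝ ℝ ℝ)) (kL z₀), Z))
    (ρ : C(I, I)), ρ 0 = 0 ∧ ρ 1 = 1 ∧ e (Su.inf _ _) = z₀ ∧
      ∀ (x τ : ℝ) (t : I) (k : Lp z₀) h, ps t = (τ : OnePoint ℝ) →
        e (Su.mk _ (kL z₀) (x, τ) k h) = k.1.1 (ρ t)

/-- the cover of the homotopy fibre -/
def FIB : Prop := ∀ (A B Z : Type) [TopologicalSpace A] [TopologicalSpace B] [TopologicalSpace Z]
  (a₀ : A) (b : B) (z₀ : Z) (D : SuspData A B a₀ b) (e : C(B, Z)) (κ : C(A, Lp z₀))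
  (σ : C(Lp z₀, A)) (ρ : C(I, I)), e b = z₀ → ρ 0 = 0 → ρ 1 = 1 → (∀ k, κ (σ k) = k) →
  (σ.comp κ).Homotopic (ContinuousMap.id _) →
  (∀ a t, e ((D.j a).1.1 t) = (κ a).1.1 (ρ t)) → PathConnectedSpace (Lp z₀) →
  Nonempty (MVData (Fb e z₀) (Lp z₀) ↥(D.V₁ ∩ D.V₂) (kL z₀))

/-- the Kunneth theorem in the first non-trivial degree -/
def KE : Prop := ∀ (A B : Type) [TopologicalSpace A] [TopologicalSpace B] (a₀ : A) (b₀ : B)
  (a b : ℕ), (∀ i < a, RZ A i) → (∀ i < b, RZ B i) → H2 A a → H2 B b →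
  ∀ z z' : Ch (a + b) (A × B), RedCyc (a + b) z → RedCyc (a + b) z' →
    Hg z (dec a₀ b₀ (a + b) z) ∨ Hg z' (dec a₀ b₀ (a + b) z') ∨
      Hg (z - dec a₀ b₀ (a + b) z) (z' - dec a₀ b₀ (a + b) z')

/-- Mayer-Vietoris (from `KE`) -/
def MVH : Prop := ∀ (X A Y : Type) [TopologicalSpace X] [TopologicalSpace A] [TopologicalSpace Y]
  (a₀ : A) (q : ℕ), 1 ≤ q → MVData X A Y a₀ → PathConnectedSpace A → PathConnectedSpace Y →
  (∀ j < q, RZ A j) → (∀ j < q, RZ Y j) → H2 A q → H2 Y q →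
  SimplyConnectedSpace X ∧ (∀ j ≤ 2 * q, RZ X j) ∧ H2 X (2 * q + 1)

/-- Hurewicz -/
def HUR : Prop := ∀ (X : Type) [TopologicalSpace X] (x₀ : X) (m : ℕ), SimplyConnectedSpace X →
  (∀ j ≤ m + 1, RZ X j) → H2 X (m + 2) → Two X x₀ (m + 2)

/-- lifting to the homotopy fibre -/
def LIFT : Prop := ∀ (B Z : Type) [TopologicalSpace B] [TopologicalSpace Z] (e : C(B, Z)) (b : B)
  (z₀ : Z) (he : e b = z₀) (n : ℕ), PN Z z₀ n → Two (Fb e z₀) (Fb.pt he) n → Two B b n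

/-- the stable group has at most two elements -/
def TWO : Prop := ∀ (Z : Type) [TopologicalSpace Z] (z₀ : Z) (q : ℕ), 1 ≤ q →
  SimplyConnectedSpace Z → (∀ j ≤ q, RZ Z j) → H2 Z (q + 1) → PN Z z₀ (2 * q + 1) →
  ∀ n : ℕ, 1 ≤ n → Two (SuN n (kL z₀)) (Su.inf _ _) (2 * q + n)

/-! ### back to compact spaces -/

open Vale.Agent.P263.FR Vale.Agent.P263.TJ Vale.Agent.P263.G2

/-- continuity of `JF` -/
def JC : Prop := ∀ (n : ℕ) (N K : Type) [TopologicalSpace N] [CompactSpace N] [TopologicalSpace K]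
  (k₀ : K) (f : C(N, K)), Continuous (JF n k₀ f)

/-- the constant map slides along the whisker -/
def NULLC : Prop := ∀ (m n : ℕ) (N K : Type) [TopologicalSpace N] [CompactSpace N]
  [TopologicalSpace K] (k₀ : K) (c : C(Sp m, TT n N)) (g : C(Sp m, SuN n k₀)), c ∞ = ∞ →
  (∀ z, g z = JF n k₀ (fun _ => k₀) (c z)) →
  g.HomotopicRel (ContinuousMap.const _ (Su.inf _ k₀)) {∞}

/-- homotopies lie over compact sets -/
def CUT : Prop := ∀ (m n : ℕ) (N K : Type) [TopologicalSpace N] [CompactSpace N]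
  [TopologicalSpace K] (k₀ : K) (c : C(Sp m, TT n N)) (f f' : C(N, K))
  (g g' : C(Sp m, SuN n k₀)), c ∞ = ∞ → (∀ z, g z = JF n k₀ f (c z)) →
  (∀ z, g' z = JF n k₀ f' (c z)) → g.HomotopicRel g' {∞} →
  ∃ (Y : Set K) (h₀ : k₀ ∈ Y) (hf : ∀ p, f p ∈ Y) (hf' : ∀ p, f' p ∈ Y)
    (a a' : C(Sp m, SuN n (⟨k₀, h₀⟩ : Y))), IsCompact Y ∧
    (∀ z, a z = JF n (⟨k₀, h₀⟩ : Y) (fun p => ⟨f p, hf p⟩) (c z)) ∧
    (∀ z, a' z = JF n (⟨k₀, h₀⟩ : Y) (fun p => ⟨f' p, hf' p⟩) (c z)) ∧ a.HomotopicRel a' {∞}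

/-- the stable splitting -/
def SPLIT : Prop := ∀ (m n : ℕ) (N Y : Type) [TopologicalSpace N] [CompactSpace N] [T2Space N]
  [TopologicalSpace Y] [CompactSpace Y] [T2Space Y] (y₀ : Y) (c : C(Sp m, TT n N))
  (f f' : C(N, Y)) (a a' : C(Sp m, SuN n y₀)), c ∞ = ∞ → (∀ z, a z = JF n y₀ f (c z)) →
  (∀ z, a' z = JF n y₀ f' (c z)) → a.HomotopicRel a' {∞} →
  StHtpc (m := m) (n := n) (X := TopCat.of Y) ((thm (K := n) f).comp c) ((thm (K := n) f').comp c)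

/-- the class on the loop space -/
def LOOPY : Prop := ∀ (P : Type) [TopologicalSpace P] [CompactSpace P] [T2Space P] (q : ℕ)
  (x : Cc (sing P)), Cc.IsDeg q x → Cc.d x = 0 → ∃ u : Fn (q + 1) (TT 1 P), IsCoc u ∧
  ∀ (Z : Type) [TopologicalSpace Z] (i : C(TT 1 P, Z)) (v : Fn (q + 1) Z), IsCoc v →
    (∀ c, v (push i (q + 1) c) = u c) → ∃ (f : C(P, Lp (i ∞))) (y : Cc (sing (Lp (i ∞)))),
      Cc.IsDeg q y ∧ Cc.d y = 0 ∧ (Cc.cupC (sing P)).Coh (Cc.pull (singMap f) y) x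

/-- **the converse** -/
def CONV : Prop := ∀ (i q : ℕ) (N : TopCat.{0}) [CompactSpace N] [T2Space N]
  (c : Vale.Agent.P263.ST.Sph (q + q + (i + 1)) ⟶ Th (i + 1) N)
  (cN : C(Sp (q + q + (i + 1)), TT (i + 1) N)) (hc : cN ∞ = ∞), (∀ z, c z = cN z) → 0 < q →
  ∀ (w : Cc (sing N)) (hw : Cc.IsDeg q w) (dw : Cc.d w = 0), Phi (d := q + q) cN hc hw dw = 1 →
  ∀ (u : Cc (sing N)) (hu : Cc.IsDeg q u) (du : Cc.d u = 0), Phi (d := q + q) cN hc hu du = 0 →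
  PhiZero c (cl q u du)

end Vale.Agent.P263B15
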