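import Vale.Agent.P263B15.Two
import Vale.Agent.P263B15.Conv
import Vale.Agent.P263B87.Susp
import Vale.Agent.P263B19.Row
import Vale.Agent.P263B90.Row
import Vale.Agent.P263B94.Row
import Vale.Agent.P263B39.Att
import Vale.Agent.P263B39.Kill1
import Vale.Agent.P263B33.Ext
import Vale.Agent.P263B33.Loopy
import Vale.Agent.P263B67.Row
import Vale.Agent.P263B76.Zex
import Vale.Agent.P263B49.Row
import Vale.Agent.P263B96.Wh
import Vale.Agent.P263B96.Ev
import Vale.Agent.P263B71.Fib
import Vale.Agent.P263B89.MVH
import Vale.Agent.P263B5.Row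
import Vale.Agent.P263B92.Rows
import Vale.Agent.P263B36.Cut
import Vale.Agent.P263B14.NullC
import Vale.Agent.P263B64.Split

/-!
# P263B: the converse, without hypotheses
-/

namespace Vale.Agent.P263B15

theorem zex_all : ZEX :=
  P263B76.zex P263B39.att P263B33.ext1 P263B33.ext2 P263B67.stepsc P263B39.kill1 P263B67.kill2
    P263B67.kill3

theorem two_all : TWO :=
  two P263B87.susp P263B19.homeo P263B90.susph P263B94.loopsc P263B94.adj_row P263B19.freu
    P263B49.looph P263B96.whisk P263B96.ev P263B71.fib (P263B89.mvh P263B5.ke) P263B92.hur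
    P263B92.lift

theorem conv_all : CONV :=
  conv zex_all two_all P263B36.jc P263B14.nullc P263B36.cut P263B64.split P263B33.loopy

end Vale.Agent.P263B15
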