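import Vale.Agent.P263.AD.Freu

/-!
# P263B: definitions for the converse (the stable group of `K(F_2, q)` in degree `2 q`)

* `H2 X n`, `Two X x₀ n` : at most one non-zero class in reduced homology, in homotopy.
* `SuspData A B a₀ b` : `B` is the suspension of `A`.
* `Ext K`, `Su s k₀` : a model of the suspensions of a space `K` with a whisker at `k₀`.
* `Fb e z₀` : the homotopy fibre. `MVData` : its cover by two open sets.
-/

open Topology Set OnePoint

set_option linter.unusedSectionVars false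

namespace Vale.Agent.P263B15

open Vale.Agent.P246.T Vale.Agent.P246.T.FM Vale.Agent.P263.AD.Freu

/-- the sphere -/
abbrev Sp (n : ℕ) : Type := OnePoint (Fin n → ℝ)

/-- the loop space -/
abbrev Lp {B : Type} [TopologicalSpace B] (b : B) : Type := ↥(ev b ⁻¹' {b})

/-- at most one non-zero class in the reduced integral homology in degree `n` -/
def H2 (X : Type) [TopologicalSpace X] (n : ℕ) : Prop :=
  ∀ c c' : Ch n X, RedCyc n c → RedCyc n c' → Hg c 0 ∨ Hg c' 0 ∨ Hg c c'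

/-- at most one non-trivial based homotopy class of based maps `Sⁿ → X` -/
def Two (X : Type) [TopologicalSpace X] (x₀ : X) (n : ℕ) : Prop :=
  ∀ f g : C(Sp n, X), f ∞ = x₀ → g ∞ = x₀ →
    f.HomotopicRel (ContinuousMap.const _ x₀) {∞} ∨
      g.HomotopicRel (ContinuousMap.const _ x₀) {∞} ∨ f.HomotopicRel g {∞}

/-- an additive function on chains with values in `F_2` -/
abbrev Fn (p : ℕ) (X : Type) [TopologicalSpace X] : Type := Ch p X →ₗ[ℤ] ZMod 2

/-- a cocycle -/
def IsCoc {p : ℕ} {X : Type} [TopologicalSpace X] (u : Fn p X) : Prop :=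
  ∀ b : Ch (p + 1) X, u (bd p b) = 0

/-- the fundamental chain of the cube -/
noncomputable def zt (n : ℕ) : Ch n (Dk n) := Finsupp.single (Vale.Agent.P263.T0.SphH.hmC n) 1

/-- `B` is the suspension of `A` -/
structure SuspData (A B : Type) [TopologicalSpace A] [TopologicalSpace B] (a₀ : A) (b : B) where
  V₁ : Set B
  V₂ : Set B
  o₁ : IsOpen V₁
  o₂ : IsOpen V₂
  cov : V₁ ∪ V₂ = univ
  m₁ : b ∈ V₁
  m₂ : b ∈ V₂
  c₁ : Contr V₁ b
  c₂ : Contr V₂ b
  i : C(A, ↥(V₁ ∩ V₂))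
  r : C(↥(V₁ ∩ V₂), A)
  ir : (i.comp r).Homotopic (ContinuousMap.id _)
  ri : (r.comp i).Homotopic (ContinuousMap.id _)
  j : C(A, Lp b)
  emb : IsEmbedding j
  base : j a₀ = kL b
  cl : ((clut c₁ c₂).comp i).Homotopic j

/-! ### the model of the suspensions -/

/-- `K` with one more point, whose only neighbourhood is the whole space -/
def Ext (K : Type) : Type := Option K

/-- the points of `K` -/
def Ext.of {K : Type} (k : K) : Ext K := Option.some k

/-- the new point -/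
def Ext.no (K : Type) : Ext K := Option.none

theorem Ext.of_ne {K : Type} (k : K) : Ext.of k ≠ Ext.no K := Option.some_ne_none k

theorem Ext.of_inj {K : Type} {k k' : K} (h : Ext.of k = Ext.of k') : k = k' := Option.some.inj h

theorem Ext.cases {K : Type} (x : Ext K) : x = Ext.no K ∨ ∃ k, x = Ext.of k := by
  rcases x with _ | k
  · exact Or.inl rfl
  · exact Or.inr ⟨k, rfl⟩

instance Ext.top (K : Type) [TopologicalSpace K] : TopologicalSpace (Ext K) where
  IsOpen O := IsOpen (Ext.of ⁻¹' O) ∧ (Ext.no K ∈ O → O = univ)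
  isOpen_univ := ⟨isOpen_univ, fun _ => rfl⟩
  isOpen_inter s t hs ht := ⟨hs.1.inter ht.1, fun h => by rw [hs.2 h.1, ht.2 h.2, inter_self]⟩
  isOpen_sUnion s hs := ⟨by
    rw [preimage_sUnion]
    exact isOpen_biUnion fun t ht => (hs t ht).1, fun ⟨t, ht, h⟩ =>
      eq_univ_of_univ_subset (((hs t ht).2 h).symm.subset.trans (subset_sUnion_of_mem ht))⟩

section Ext

variable {K X : Type} [TopologicalSpace K] [TopologicalSpace X]

theorem Ext.isOpen_iff {O : Set (Ext K)} :
    IsOpen O ↔ IsOpen (Ext.of ⁻¹' O) ∧ (Ext.no K ∈ O → O = univ) := Iff.rfl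

theorem Ext.continuous_of : Continuous (Ext.of : K → Ext K) :=
  continuous_def.2 fun _ h => h.1

theorem Ext.isOpen_image {O : Set K} (h : IsOpen O) : IsOpen (Ext.of '' O) := by
  refine ⟨?_, fun ⟨k, _, hk⟩ => absurd hk (Ext.of_ne k)⟩
  rwa [preimage_image_eq _ fun _ _ => Ext.of_inj]

theorem Ext.isOpenEmbedding_of : IsOpenEmbedding (Ext.of : K → Ext K) :=
  IsOpenEmbedding.of_continuous_injective_isOpenMap Ext.continuous_of (fun _ _ => Ext.of_inj)
    fun _ h => Ext.isOpen_image h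

/-- continuity at a point with the value `Ext.no` is automatic -/
theorem Ext.continuousAt_no {f : X → Ext K} {x : X} (h : f x = Ext.no K) : ContinuousAt f x := by
  intro O hO
  obtain ⟨U, hU, hUo, hx⟩ := mem_nhds_iff.1 hO
  rw [h] at hx
  rw [eq_univ_of_univ_subset ((hUo.2 hx).symm.subset.trans hU)]
  exact Filter.univ_mem

open Classical in
/-- `κ` on the set `S`, and `Ext.no` outside -/
noncomputable def Ext.cut (S : Set X) (κ : X → Ext K) (x : X) : Ext K :=
  if x ∈ S then κ x else Ext.no K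

theorem Ext.cut_of_mem {S : Set X} {κ : X → Ext K} {x : X} (h : x ∈ S) : Ext.cut S κ x = κ x :=
  if_pos h

theorem Ext.cut_of_notMem {S : Set X} {κ : X → Ext K} {x : X} (h : x ∉ S) :
    Ext.cut S κ x = Ext.no K := if_neg h

theorem Ext.continuous_cut {S : Set X} (hS : IsOpen S) {κ : X → Ext K} (hκ : ContinuousOn κ S) :
    Continuous (Ext.cut S κ) := by
  rw [continuous_iff_continuousAt]
  intro x
  by_cases hx : x ∈ S
  · refine ((hκ x hx).continuousAt (hS.mem_nhds hx)).congr ?_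
    filter_upwards [hS.mem_nhds hx] with y hy
    exact (Ext.cut_of_mem hy).symm
  · exact Ext.continuousAt_no (Ext.cut_of_notMem hx)

end Ext

section Su

variable {E E' K X : Type} [NormedAddCommGroup E] [NormedSpace ℝ E] [NormedAddCommGroup E']
  [NormedSpace ℝ E'] [TopologicalSpace K] [TopologicalSpace X]

/-- the points `(e, k)` with `s e = 0`, the points `(e, k₀)` with `s e ≥ 0`, and `∞` -/
def Su (s : E →L[ℝ] ℝ) (k₀ : K) : Type :=
  {p : OnePoint E × Ext K // (p.1 = ∞ ↔ p.2 = Ext.no K) ∧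
    ∀ (e : E) (k : K), p.1 = (e : OnePoint E) → p.2 = Ext.of k → 0 ≤ s e ∧ (s e = 0 ∨ k = k₀)}

instance Su.top (s : E →L[ℝ] ℝ) (k₀ : K) : TopologicalSpace (Su s k₀) :=
  instTopologicalSpaceSubtype

/-- the base point -/
def Su.inf (s : E →L[ℝ] ℝ) (k₀ : K) : Su s k₀ :=
  ⟨(∞, Ext.no K), ⟨fun _ => rfl, fun _ => rfl⟩, fun e _ h _ => absurd h (OnePoint.infty_ne_coe e)⟩

/-- the finite points -/
def Su.mk (s : E →L[ℝ] ℝ) (k₀ : K) (e : E) (k : K) (h : 0 ≤ s e ∧ (s e = 0 ∨ k = k₀)) :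
    Su s k₀ :=
  ⟨((e : OnePoint E), Ext.of k), ⟨fun h => absurd h (OnePoint.coe_ne_infty e),
    fun h => absurd h (Ext.of_ne k)⟩, fun e' k' h1 h2 => by
      have h3 : e = e' := OnePoint.coe_injective h1
      have h4 : k = k' := Ext.of_inj h2
      rw [← h3, ← h4]
      exact h⟩

variable {s : E →L[ℝ] ℝ} {s' : E' →L[ℝ] ℝ} {k₀ : K}

theorem Su.eq_inf {p : Su s k₀} (h : p.1.1 = ∞) : p = Su.inf s k₀ :=
  Subtype.ext (Prod.ext h (p.2.1.1 h))

theorem Su.cases (p : Su s k₀) : p = Su.inf s k₀ ∨ ∃ e k h, p = Su.mk s k₀ e k h := by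
  obtain ⟨⟨w, κ⟩, hp⟩ := p
  induction w using OnePoint.rec with
  | infty => exact Or.inl (Su.eq_inf rfl)
  | coe e =>
    rcases Ext.cases κ with rfl | ⟨k, rfl⟩
    · exact absurd (hp.1.2 rfl) (OnePoint.coe_ne_infty e)
    · exact Or.inr ⟨e, k, hp.2 e k rfl rfl, rfl⟩

/-- two points with the same first coordinate, and the same second one if they are finite -/
theorem Su.ext {p p' : Su s k₀} (h1 : p.1.1 = p'.1.1) (h2 : p.1.1 ≠ ∞ → p.1.2 = p'.1.2) :
    p = p' := by
  by_cases h : p.1.1 = ∞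
  · rw [Su.eq_inf h, Su.eq_inf (h1.symm.trans h)]
  · exact Subtype.ext (Prod.ext h1 (h2 h))

theorem Su.continuous_fst : Continuous fun p : Su s k₀ => p.1.1 :=
  _root_.continuous_fst.comp continuous_subtype_val

theorem Su.continuous_snd : Continuous fun p : Su s k₀ => p.1.2 :=
  _root_.continuous_snd.comp continuous_subtype_val

theorem Su.continuous_iff {g : X → Su s k₀} :
    Continuous g ↔ (Continuous fun x => (g x).1.1) ∧ Continuous fun x => (g x).1.2 :=
  ⟨fun h => ⟨Su.continuous_fst.comp h, Su.continuous_snd.comp h⟩,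
    fun h => continuous_induced_rng.2 (h.1.prodMk h.2)⟩

/-- `w` is a new first coordinate for the map `g` -/
def Passive (s' : E' →L[ℝ] ℝ) (g : X → Su s k₀) (w : X → OnePoint E') : Prop :=
  (∀ x, (g x).1.1 = ∞ → w x = ∞) ∧ ∀ (x : X) (e : E) (e' : E'), (g x).1.1 = (e : OnePoint E) →
    w x = (e' : OnePoint E') → ∃ ρ : ℝ, 0 ≤ ρ ∧ s' e' = ρ * s e

/-- the map with the first coordinate `w` and the second coordinate of `g` -/
noncomputable def Su.lift {g : X → Su s k₀} {w : X → OnePoint E'} (h : Passive s' g w) (x : X) :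
    Su s' k₀ :=
  ⟨(w x, Ext.cut {x | w x ≠ ∞} (fun x => (g x).1.2) x), by
    refine ⟨⟨fun h1 => Ext.cut_of_notMem (S := {x | w x ≠ ∞}) (κ := fun x => (g x).1.2)
      (not_not.2 h1), fun h1 => ?_⟩, fun e' k h1 h2 => ?_⟩
    · by_contra h2
      have h3 : (g x).1.2 = Ext.no K := 
        (Ext.cut_of_mem (S := {x | w x ≠ ∞}) (κ := fun x => (g x).1.2) h2).symm.trans h1
      exact h2 (h.1 x ((g x).2.1.2 h3))
    · have h3 : w x ≠ ∞ := fun h4 => OnePoint.coe_ne_infty e' (h1.symm.trans h4)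
      have h4 : (g x).1.2 = Ext.of k := 
        (Ext.cut_of_mem (S := {x | w x ≠ ∞}) (κ := fun x => (g x).1.2) h3).symm.trans h2
      obtain ⟨e, he⟩ := OnePoint.ne_infty_iff_exists.1 fun h5 => h3 (h.1 x h5)
      obtain ⟨ρ, hρ, h5⟩ := h.2 x e e' he.symm h1
      obtain ⟨h6, h7⟩ := (g x).2.2 e k he.symm h4
      refine ⟨h5 ▸ mul_nonneg hρ h6, h7.imp (fun h8 => ?_) id⟩
      rw [h5, h8, mul_zero]⟩

theorem Su.lift_fst {g : X → Su s k₀} {w : X → OnePoint E'} (h : Passive s' g w) (x : X) :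
    (Su.lift h x).1.1 = w x := rfl

theorem Su.lift_snd {g : X → Su s k₀} {w : X → OnePoint E'} (h : Passive s' g w) {x : X}
    (hx : w x ≠ ∞) : (Su.lift h x).1.2 = (g x).1.2 :=
  Ext.cut_of_mem (S := {x | w x ≠ ∞}) (κ := fun x => (g x).1.2) hx

theorem Su.continuous_lift {g : X → Su s k₀} {w : X → OnePoint E'} (h : Passive s' g w)
    (hg : Continuous g) (hw : Continuous w) : Continuous (Su.lift h) :=
  Su.continuous_iff.2 ⟨hw, Ext.continuous_cut (isOpen_compl_singleton.preimage hw)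
    (Su.continuous_snd.comp hg).continuousOn⟩

end Su

/-- the model of the `n`-fold suspension of `K` -/
abbrev SuN (n : ℕ) {K : Type} [TopologicalSpace K] (k₀ : K) : Type :=
  Su (ContinuousLinearMap.snd ℝ (Fin n → ℝ) ℝ) k₀

/-- the map `(v, p) ↦ ((v, 0), f p)` -/
noncomputable def JF (n : ℕ) {N K : Type} [TopologicalSpace K] (k₀ : K) (f : N → K)
    (z : OnePoint ((Fin n → ℝ) × N)) : SuN n k₀ :=
  OnePoint.elim z (Su.inf _ k₀) fun p => Su.mk _ k₀ (p.1, 0) (f p.2) ⟨le_rfl, Or.inl rfl⟩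

/-! ### the homotopy fibre -/

/-- the homotopy fibre of `e` over `z₀` -/
abbrev Fb {B Z : Type} [TopologicalSpace B] [TopologicalSpace Z] (e : C(B, Z)) (z₀ : Z) : Type :=
  {p : B × PP z₀ // e p.1 = ev z₀ p.2}

/-- its base point -/
def Fb.pt {B Z : Type} [TopologicalSpace B] [TopologicalSpace Z] {e : C(B, Z)} {b : B} {z₀ : Z}
    (h : e b = z₀) : Fb e z₀ := ⟨(b, (kL z₀).1), h⟩

/-- a cover by two open sets whose intersection looks like `A × Y` -/
structure MVData (X A Y : Type) [TopologicalSpace X] [TopologicalSpace A] [TopologicalSpace Y]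
    (a₀ : A) where
  U₁ : Set X
  U₂ : Set X
  o₁ : IsOpen U₁
  o₂ : IsOpen U₂
  cov : U₁ ∪ U₂ = univ
  p₁ : IsPathConnected U₁
  p₂ : IsPathConnected U₂
  n₁ : (PR.inc U₁).Nullhomotopic
  n₂ : (PR.inc U₂).Nullhomotopic
  T₁ : C(U₁, A)
  T₂ : C(U₂, A)
  s : C(A × Y, ↥(U₁ ∩ U₂))
  t : C(↥(U₁ ∩ U₂), A × Y)
  st : (s.comp t).Homotopic (ContinuousMap.id _)
  h₂ : ((T₂.comp (sub (inter_subset_right : U₁ ∩ U₂ ⊆ U₂))).comp s).Homotopic ContinuousMap.fst
  inj : ∀ (n : ℕ) (c : Ch n Y), RedCyc n c → Hg (push (((T₁.comp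
    (sub (inter_subset_left : U₁ ∩ U₂ ⊆ U₁))).comp s).comp (ContinuousMap.prodMk
      (ContinuousMap.const Y a₀) (ContinuousMap.id Y))) n c) 0 → Hg c 0

/-- the sum of the images of a chain of `A × B` on the two axes -/
noncomputable def dec {A B : Type} [TopologicalSpace A] [TopologicalSpace B] (a₀ : A) (b₀ : B)
    (n : ℕ) (z : Ch n (A × B)) : Ch n (A × B) :=
  push (⟨fun q => (q.1, b₀), by fun_prop⟩ : C(A × B, A × B)) n z +
    push (⟨fun q => (a₀, q.2), by fun_prop⟩ : C(A × B, A × B)) n z -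
    push (ContinuousMap.const (A × B) (a₀, b₀)) n z

end Vale.Agent.P263B15
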