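import Vale.Agent.P263B15.Rows

/-!
# P263B: the stable group has at most two elements, from the rows
-/

open Topology Set OnePoint

namespace Vale.Agent.P263B15

open Vale.Agent.P246.T Vale.Agent.P246.T.FM Vale.Agent.P263.AD.Freu
open Vale.Agent.P251.G.LC (smash smash_coe_coe)

section Transport

variable {X Y : Type} [TopologicalSpace X] [TopologicalSpace Y] {n : ℕ}

theorem hg_retract {f : C(X, Y)} {g : C(Y, X)} (h : (g.comp f).Homotopic (ContinuousMap.id X))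
    {c c' : Ch n X} (hc : RedCyc n c) (hc' : RedCyc n c') (hh : Hg (push f n c) (push f n c')) :
    Hg c c' := by
  have h1 := hh.push g
  rw [← push_comp, ← push_comp] at h1
  have h2 := hg_of_homotopic h hc
  have h3 := hg_of_homotopic h hc'
  rw [push_id] at h2 h3
  exact h2.symm.trans (h1.trans h3)

theorem H2.of_retract {f : C(X, Y)} {g : C(Y, X)} (h : (g.comp f).Homotopic (ContinuousMap.id X))
    (hY : H2 Y n) : H2 X n := by
  intro c c' hc hc'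
  have h0 : RedCyc n (0 : Ch n X) := by simpa using hc.sub hc
  rcases hY _ _ (redCyc_push f hc) (redCyc_push f hc') with h1 | h1 | h1
  · exact Or.inl (hg_retract h hc h0 (by rwa [map_zero]))
  · exact Or.inr (Or.inl (hg_retract h hc' h0 (by rwa [map_zero])))
  · exact Or.inr (Or.inr (hg_retract h hc hc' h1))

theorem pc_of_retract {f : C(X, Y)} {g : C(Y, X)} (h : (g.comp f).Homotopic (ContinuousMap.id X))
    (hY : PathConnectedSpace Y) : PathConnectedSpace X := by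
  obtain ⟨H⟩ := h
  have h1 : ∀ x, Joined (g (f x)) x := fun x => ⟨H.evalAt x⟩
  refine ⟨⟨g (Classical.choice hY.nonempty)⟩, fun x y => ?_⟩
  exact (h1 x).symm.trans
    (Joined.trans ⟨(PathConnectedSpace.somePath (f x) (f y)).map g.continuous⟩ (h1 y))

theorem homeo_retract (h : X ≃ₜ Y) :
    ((h : C(X, Y)).comp (h.symm : C(Y, X))).Homotopic (ContinuousMap.id Y) := by
  have : (h : C(X, Y)).comp (h.symm : C(Y, X)) = ContinuousMap.id Y :=
    ContinuousMap.ext fun y => h.apply_symm_apply y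
  rw [this]

theorem Two.of_homeo (h : X ≃ₜ Y) {x₀ : X} {y₀ : Y} (h0 : h x₀ = y₀) (hX : Two X x₀ n) :
    Two Y y₀ n := by
  intro f g hf hg
  have h1 : h.symm y₀ = x₀ := by rw [← h0, h.symm_apply_apply]
  have e1 : ∀ a : C(Sp n, Y), (h : C(X, Y)).comp ((h.symm : C(Y, X)).comp a) = a := fun a =>
    ContinuousMap.ext fun y => h.apply_symm_apply _
  have e2 : (h : C(X, Y)).comp (ContinuousMap.const (Sp n) x₀) = ContinuousMap.const _ y₀ :=
    ContinuousMap.ext fun _ => h0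
  rcases hX ((h.symm : C(Y, X)).comp f) ((h.symm : C(Y, X)).comp g)
    ((congrArg h.symm hf).trans h1) ((congrArg h.symm hg).trans h1) with h2 | h2 | h2
  · have h3 := h2.comp_continuousMap (h : C(X, Y))
    rw [e1, e2] at h3
    exact Or.inl h3
  · have h3 := h2.comp_continuousMap (h : C(X, Y))
    rw [e1, e2] at h3
    exact Or.inr (Or.inl h3)
  · have h3 := h2.comp_continuousMap (h : C(X, Y))
    rw [e1, e1] at h3
    exact Or.inr (Or.inr h3)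

end Transport

/-- the induction invariant -/
def Inv (X : Type) [TopologicalSpace X] (x₀ : X) (N m : ℕ) : Prop :=
  (∀ i < N, RZ X i) ∧ SimplyConnectedSpace X ∧ Two X x₀ m

theorem Inv.of_homeo {X Y : Type} [TopologicalSpace X] [TopologicalSpace Y] (h : X ≃ₜ Y) {x₀ : X}
    {y₀ : Y} (h0 : h x₀ = y₀) {N m : ℕ} (hX : Inv X x₀ N m) : Inv Y y₀ N m := by
  refine ⟨fun i hi => RZ.of_retract (homeo_retract h) (hX.1 i hi), ?_, hX.2.2.of_homeo h h0⟩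
  have := hX.2.1
  exact h.symm.toHomotopyEquiv.simplyConnectedSpace

theorem exists_cle (r : ℕ) : ∃ e : (((Fin r → ℝ) × ℝ) × ℝ) ≃L[ℝ] ((Fin (r + 1) → ℝ) × ℝ),
    ∀ x, (e x).2 = x.1.2 := by
  let φ : ((Fin r → ℝ) × ℝ) ≃L[ℝ] (Fin (r + 1) → ℝ) :=
    ContinuousLinearEquiv.ofFinrankEq (by simp)
  let sw : (((Fin r → ℝ) × ℝ) × ℝ) →L[ℝ] (((Fin r → ℝ) × ℝ) × ℝ) :=
    (((ContinuousLinearMap.fst ℝ _ ℝ).comp (ContinuousLinearMap.fst ℝ _ ℝ)).prod
      (ContinuousLinearMap.snd ℝ _ ℝ)).prod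
      ((ContinuousLinearMap.snd ℝ _ ℝ).comp (ContinuousLinearMap.fst ℝ _ ℝ))
  exact ⟨(ContinuousLinearEquiv.equivOfInverse sw sw (fun _ => rfl) fun _ => rfl).trans
    (φ.prodCongr (ContinuousLinearEquiv.refl ℝ ℝ)), fun _ => rfl⟩

theorem exists_cle_one : ∃ e : (ℝ × ℝ) ≃L[ℝ] ((Fin 1 → ℝ) × ℝ), ∀ x, (e x).2 = x.1 := by
  let φ : ℝ ≃L[ℝ] (Fin 1 → ℝ) := ContinuousLinearEquiv.ofFinrankEq (by simp)
  exact ⟨(ContinuousLinearEquiv.prodComm ℝ ℝ ℝ).trans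
    (φ.prodCongr (ContinuousLinearEquiv.refl ℝ ℝ)), fun _ => rfl⟩

theorem rz_susp (hSH : SUSPH) {A B : Type} [TopologicalSpace A] [TopologicalSpace B] {a₀ : A}
    {b : B} (D : SuspData A B a₀ b) {N : ℕ} (h : ∀ i < N, RZ A i) : ∀ i < N + 1, RZ B i := by
  intro i hi
  obtain ⟨h0, h1, -⟩ := hSH A B a₀ b D
  cases i with
  | zero => exact h0
  | succ i => exact h1 i (h i (by omega))

/-- the step of the induction -/
theorem inv_step (hS : SUSP) (hH : HOMEO) (hSH : SUSPH) (hL : LOOPSC) (hA : ADJ) (hF : FREU)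
    {K : Type} [TopologicalSpace K] (k₀ : K) {r N m : ℕ} (hN : 2 ≤ N) (hm : 1 ≤ m)
    (hmN : m + 1 ≤ 2 * N) (h : Inv (SuN r k₀) (Su.inf _ _) N m) :
    Inv (SuN (r + 1) k₀) (Su.inf _ _) (N + 1) (m + 1) := by
  obtain ⟨D, -⟩ := hS ((Fin r → ℝ) × ℝ) K (ContinuousLinearMap.snd ℝ (Fin r → ℝ) ℝ) k₀
  obtain ⟨e, he⟩ := exists_cle r
  obtain ⟨φ, hφ⟩ := hH _ _ K ((ContinuousLinearMap.snd ℝ (Fin r → ℝ) ℝ).comp
    (ContinuousLinearMap.fst ℝ _ ℝ)) (ContinuousLinearMap.snd ℝ (Fin (r + 1) → ℝ) ℝ) k₀ e he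
  refine Inv.of_homeo φ hφ ?_
  have h1 := rz_susp hSH D h.1
  have := h.2.1
  have h2 := (hSH _ _ _ _ D).2.2 inferInstance
  exact ⟨h1, h2, hA _ _ m (hF _ _ _ _ D N m h.2.1 (hL _ _ h2 (h1 2 (by omega))) h.1 hm hmN h.2.2)⟩

/-- the first suspension -/
theorem inv_one (hS : SUSP) (hH : HOMEO) (hSH : SUSPH) (hLH : LOOPH) (hW : WHISK) (hE : EV)
    (hFb : FIB) (hM : MVH) (hHu : HUR) (hLi : LIFT) {Z : Type} [TopologicalSpace Z] (z₀ : Z)
    {q : ℕ} (hq : 1 ≤ q) (hZ : SimplyConnectedSpace Z) (hR : ∀ j ≤ q, RZ Z j) (h2 : H2 Z (q + 1))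
    (hP : PN Z z₀ (2 * q + 1)) : Inv (SuN 1 (kL z₀)) (Su.inf _ _) (q + 1) (2 * q + 1) := by
  obtain ⟨pK, rK, hK⟩ := hLH Z z₀ q hq hZ hR h2
  obtain ⟨κ, σ, κ0, κ1, hκσ, hσκ⟩ := hW (Lp z₀) (kL z₀)
  obtain ⟨D, hD⟩ := hS ℝ (Lp z₀) (ContinuousLinearMap.id ℝ ℝ) (kL z₀)
  obtain ⟨e, ρ, ρ0, ρ1, e0, he⟩ := hE Z z₀
  have pS := pc_of_retract hσκ pK
  have rS : ∀ j < q, RZ (Su (ContinuousLinearMap.id ℝ ℝ) (kL z₀)) j := fun j hj =>
    RZ.of_retract hσκ (rK j hj)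
  have hS2 := H2.of_retract hσκ hK
  have key : ∀ a t, e ((D.j a).1.1 t) = (κ a).1.1 (ρ t) := by
    intro a t
    obtain ⟨h3, h4⟩ := hD a t
    rcases Su.cases a with rfl | ⟨x, k, hx, rfl⟩
    · rw [Su.eq_inf (h3.trans rfl), e0, κ0]
      rfl
    · by_cases ht : ps t = ∞
      · rw [ht, Vale.Agent.P251.G.LC.smash_infty_right] at h3
        rw [Su.eq_inf h3, e0]
        rcases ps_eq_infty ht with rfl | rfl
        · rw [ρ0]
          exact (κ _).1.2.symm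
        · rw [ρ1]
          exact Eq.symm (κ _).2
      · obtain ⟨τ, hτ⟩ := OnePoint.ne_infty_iff_exists.1 ht
        have h5 : ((D.j (Su.mk _ _ x k hx)).1.1 t).1.1 = ((x, τ) : ℝ × ℝ) := by
          rw [h3, ← hτ]
          rfl
        have h6 : (D.j (Su.mk _ _ x k hx)).1.1 t = Su.mk _ (kL z₀) (x, τ) k hx :=
          Su.ext h5 h4
        rw [h6, he x τ t k hx hτ.symm, κ1]
  obtain ⟨M⟩ := hFb _ _ Z _ _ z₀ D e κ σ ρ e0 ρ0 ρ1 hκσ hσκ key pK
  obtain ⟨x1, x2, x3⟩ := hM _ _ _ _ q hq M pK (pc_of_retract D.ir pS) rK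
    (fun j hj => RZ.of_retract D.ir (rS j hj)) hK (H2.of_retract D.ir hS2)
  obtain ⟨p, rfl⟩ : ∃ p, q = p + 1 := ⟨q - 1, by omega⟩
  have x4 : Two (Fb e z₀) (Fb.pt e0) (2 * (p + 1) + 1) :=
    hHu _ (Fb.pt e0) (2 * p + 1) x1 (fun j hj => x2 j (by omega)) x3
  obtain ⟨c, hc⟩ := exists_cle_one
  obtain ⟨φ, hφ⟩ := hH _ _ (Lp z₀) ((ContinuousLinearMap.id ℝ ℝ).comp
    (ContinuousLinearMap.fst ℝ ℝ ℝ)) (ContinuousLinearMap.snd ℝ (Fin 1 → ℝ) ℝ) (kL z₀) c hc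
  exact Inv.of_homeo φ hφ ⟨rz_susp hSH D rS, (hSH _ _ _ _ D).2.2 pS, hLi _ Z e _ z₀ e0 _ hP x4⟩

theorem two (hS : SUSP) (hH : HOMEO) (hSH : SUSPH) (hL : LOOPSC) (hA : ADJ) (hF : FREU)
    (hLH : LOOPH) (hW : WHISK) (hE : EV) (hFb : FIB) (hM : MVH) (hHu : HUR) (hLi : LIFT) : TWO := by
  intro Z _ z₀ q hq hZ hR h2 hP n hn
  have key : ∀ r, Inv (SuN (r + 1) (kL z₀)) (Su.inf _ _) (q + (r + 1)) (2 * q + (r + 1)) := by
    intro r
    induction r with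
    | zero => exact inv_one hS hH hSH hLH hW hE hFb hM hHu hLi z₀ hq hZ hR h2 hP
    | succ r ih =>
      exact inv_step hS hH hSH hL hA hF (kL z₀) (N := q + (r + 1)) (m := 2 * q + (r + 1))
        (by omega) (by omega) (by omega) ih
  obtain ⟨r, rfl⟩ : ∃ r, n = r + 1 := ⟨n - 1, by omega⟩
  exact (key r).2.2

end Vale.Agent.P263B15
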